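import Vale.Agent.P365.T2.H394.Late
import Vale.Agent.P365.T2.H77.End77
import Vale.Agent.P365.T2.H213.Final

/-!
# P365-T2, B6: `TorSmall`

Small energy of the homogeneous worlds (`DSmall`) and the hubs of all worlds (`KTop`) give a small
crossing quantity on the torus at all scales `2 ^ k`.
-/

set_option linter.all false

namespace P365T2.H512

open P365L P365T1 P365T1.Conc P365T2.SeqG P365T2.ConcG P365T2.H213 P365CUL P365CUL.Inst755
open scoped ENNReal

open Classical in
/-- **B6**: the third of the three open statements of the master composition -/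
theorem torSmall : P365T2.H213.TorSmall := by
  intro lam E yf Vsf hlam _ hKT hDS c p hc hp hp1 θ hθ
  have hp2 : p < 1 := by linarith
  obtain ⟨C, K1, hC, hK1⟩ :=
    P365T2.H77.floor_num hp (1 + 2 * (1 / (2 * lam)) / (1 - p)) hθ
  obtain ⟨rs, _, K2, hK2⟩ := P365T2.H394.late_lead hlam hKT hDS hc.le hC
    (θ := 2 * (θ / 2) ^ (2 / p)) (by positivity)
  refine ⟨max K1 K2, fun k hk => ?_⟩
  obtain ⟨I, hadm, h⟩ := hK2 k ((le_max_right _ _).trans hk)
  haveI : NeZero (32 * 2 ^ k) := ⟨by positivity⟩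
  exact P365T2.H77.smTor_of_ramp hadm (32 * 2 ^ k) hc hp hp2 E (b := (1 / 2 ^ k : ℝ) ^ C)
    (by positivity) hθ (by positivity) ⟨16 * 2 ^ k, by ring⟩ le_rfl
    (hK1 k ((le_max_left _ _).trans hk)) (h (32 * 2 ^ k) rfl)

end P365T2.H512
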