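import Vale.Agent.P365.J376.PathG

/-!
# P365-T2, block B6 (part 1): late start of the chain with a sharp additive term.
-/

set_option linter.all false

namespace P365T2.H512

open P365L P365O P365T1 P365L.TL Matrix Complex MeasureTheory Filter Topology Set
open Vale.Agent.P365.J376
open scoped ComplexConjugate

variable {ι : Type*} [Fintype ι] [DecidableEq ι] {A : Matrix ι ι ℝ}
  {Λ : Type*} [Fintype Λ] {p : Λ → ℝ} {ν : Λ → Measure ℝ} {E : ℝ}
  {κ : Type*} [Fintype κ] {f : κ → ι → ℝ}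

/-- **stage** from strength `s₀` down to `t`, rate `η / s` -/
theorem stage_from (hA : A.IsSymm) [∀ k, IsProbabilityMeasure (ν k)] {b Wm : ℝ}
    (hb : 0 < b) (hWm : 0 < Wm) {u w : (ι → Λ) → ι → ℝ} (hub : ∀ l x, b ≤ u l x)
    (hw0 : ∀ l x, 0 ≤ w l x) (hw1 : ∀ l x, w l x ≤ Wm) {s₀ t η c : ℝ} (ht : 0 < t) (ht1 : t ≤ s₀)
    (h : ∀ s ∈ Ioo t s₀, CostG A p ν E f (fun l x => u l x + s * w l x) w ≤
      η / s * (PhiG A p ν E f (fun l x => u l x + s * w l x) + c)) :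
    PhiG A p ν E f (fun l x => u l x + t * w l x) + c ≤
      (PhiG A p ν E f (fun l x => u l x + s₀ * w l x) + c) * Real.exp (η * Real.log (s₀ / t)) := by
  have hd : ∀ s, 0 ≤ s → HasDerivAt
      (fun s : ℝ => PhiG A p ν E f (fun l x => u l x + s * w l x) + c)
      (-(CostG A p ν E f (fun l x => u l x + s * w l x) w)) s := fun s hs =>
    (hasDerivAt_PhiG hA hb hWm hub hw0 hw1 hs).add_const c
  exact gron_inv (Φ := fun s : ℝ => PhiG A p ν E f (fun l x => u l x + s * w l x) + c)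
    (Φ' := fun s => -(CostG A p ν E f (fun l x => u l x + s * w l x) w)) (η := η) ht ht1
    (fun s hs => (hd s (ht.le.trans hs.1)).continuousAt.continuousWithinAt)
    (fun s hs => hd s (ht.le.trans hs.1.le)) (fun s hs => by rw [neg_neg]; exact h s hs)

/-- **late start, sharp**: from strength `s₀` of stage `i₀` to the end of the chain.  The additive
term `c` is not multiplied by `e^10`. -/
theorem late_start (hA : A.IsSymm) [∀ k, IsProbabilityMeasure (ν k)] (hp : ∀ k, 0 ≤ p k)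
    {b Wm c : ℝ} (hb : 0 < b) (hWm : 0 < Wm) (hc : 0 ≤ c) {i₀ n : ℕ} (hi₀ : i₀ ≤ n)
    {u w : ℕ → (ι → Λ) → ι → ℝ} {t η : ℕ → ℝ} {s₀ ε : ℝ}
    (hub : ∀ i ≤ n, ∀ l x, b ≤ u i l x) (hw0 : ∀ i ≤ n, ∀ l x, 0 ≤ w i l x)
    (hw1 : ∀ i ≤ n, ∀ l x, w i l x ≤ Wm) (ht : ∀ i ≤ n, 0 < t i) (ht1 : ∀ i ≤ n, t i ≤ 1)
    (hη : ∀ i ≤ n, 0 ≤ η i)
    (link : ∀ i < n, ∀ l x, u i l x + t i * w i l x = u (i + 1) l x + w (i + 1) l x)
    (hs₀ : t i₀ ≤ s₀) (hs₁ : s₀ ≤ 1)
    (hub2 : ∀ i, i₀ ≤ i → i ≤ n → ∀ s ∈ Ioo (t i) 1,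
      CostG A p ν E f (fun l x => u i l x + s * w i l x) (w i) ≤
        η i / s * (PhiG A p ν E f (fun l x => u i l x + s * w i l x) + c))
    (last : ∀ l x, t n * w n l x ≤ b)
    (hε : ∑ i ∈ Finset.Icc i₀ n, η i * Real.log (1 / t i) ≤ ε) :
    PhiG A p ν E f (u n) ≤
      ((PhiG A p ν E f (fun l x => u i₀ l x + s₀ * w i₀ l x) + c) * Real.exp ε - c) *
        Real.exp 10 := by
  set Z : ℝ := PhiG A p ν E f (fun l x => u i₀ l x + s₀ * w i₀ l x) + c with hZ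
  have hs0p : 0 < s₀ := (ht i₀ hi₀).trans_le hs₀
  have hZ0 : 0 ≤ Z := by
    have h1 : 0 ≤ PhiG A p ν E f (fun l x => u i₀ l x + s₀ * w i₀ l x) :=
      PhiG_nonneg hp fun l x => by
        have h2 := hub i₀ hi₀ l x
        have h3 := mul_nonneg hs0p.le (hw0 i₀ hi₀ l x)
        linarith
    linarith
  have hlog : ∀ i ≤ n, 0 ≤ Real.log (1 / t i) := fun i hi =>
    Real.log_nonneg (by rw [le_div_iff₀ (ht i hi), one_mul]; exact ht1 i hi)
  -- the end of stage `i`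
  have key : ∀ i, i₀ ≤ i → i ≤ n →
      PhiG A p ν E f (fun l x => u i l x + t i * w i l x) + c ≤
        Z * Real.exp (∑ j ∈ Finset.Icc i₀ i, η j * Real.log (1 / t j)) := by
    intro i hi
    induction i, hi using Nat.le_induction with
    | base =>
      intro _
      rw [Finset.Icc_self, Finset.sum_singleton]
      have h1 := stage_from (E := E) (f := f) (ν := ν) (p := p) (c := c) hA hb hWm
        (hub i₀ hi₀) (hw0 i₀ hi₀) (hw1 i₀ hi₀) (ht i₀ hi₀) hs₀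
        (fun s hs => hub2 i₀ le_rfl hi₀ s ⟨hs.1, hs.2.trans_le hs₁⟩)
      refine h1.trans ?_
      refine mul_le_mul_of_nonneg_left (Real.exp_le_exp.2 ?_) hZ0
      refine mul_le_mul_of_nonneg_left (Real.log_le_log (by have := ht i₀ hi₀; positivity) ?_)
        (hη i₀ hi₀)
      exact div_le_div_of_nonneg_right hs₁ (ht i₀ hi₀).le
    | succ i hi ih =>
      intro hi1
      have h2 := stage_inv (E := E) (f := f) (ν := ν) (p := p) (c := c) hA hb hWm
        (hub (i + 1) hi1) (hw0 (i + 1) hi1) (hw1 (i + 1) hi1) (ht (i + 1) hi1) (ht1 (i + 1) hi1)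
        (hub2 (i + 1) (by omega) hi1)
      have h3 : (fun (l : ι → Λ) x => u i l x + t i * w i l x) =
          fun l x => u (i + 1) l x + w (i + 1) l x := by
        funext l x
        exact link i (by omega) l x
      have h4 := ih (by omega)
      rw [h3] at h4
      rw [Finset.sum_Icc_succ_top (by omega), Real.exp_add, ← mul_assoc]
      exact h2.trans (mul_le_mul_of_nonneg_right h4 (Real.exp_pos _).le)
  have h5 := stage_triv (E := E) (f := f) (ν := ν) (p := p) (c := 0) hA hp hb (hub n le_rfl)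
    (hw0 n le_rfl) (ht n le_rfl) last le_rfl
  rw [add_zero, add_zero] at h5
  refine h5.trans (mul_le_mul_of_nonneg_right ?_ (Real.exp_pos _).le)
  have h6 := key n hi₀ le_rfl
  have h7 : Z * Real.exp (∑ j ∈ Finset.Icc i₀ n, η j * Real.log (1 / t j)) ≤
      Z * Real.exp ε := mul_le_mul_of_nonneg_left (Real.exp_le_exp.2 hε) hZ0
  linarith

/-- numerical form: start at most `d * V`, additive term `V` -/
theorem late_start' (hA : A.IsSymm) [∀ k, IsProbabilityMeasure (ν k)] (hp : ∀ k, 0 ≤ p k)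
    {b Wm V d : ℝ} (hb : 0 < b) (hWm : 0 < Wm) (hV : 0 ≤ V) {i₀ n : ℕ} (hi₀ : i₀ ≤ n)
    {u w : ℕ → (ι → Λ) → ι → ℝ} {t η : ℕ → ℝ} {s₀ ε : ℝ}
    (hub : ∀ i ≤ n, ∀ l x, b ≤ u i l x) (hw0 : ∀ i ≤ n, ∀ l x, 0 ≤ w i l x)
    (hw1 : ∀ i ≤ n, ∀ l x, w i l x ≤ Wm) (ht : ∀ i ≤ n, 0 < t i) (ht1 : ∀ i ≤ n, t i ≤ 1)
    (hη : ∀ i ≤ n, 0 ≤ η i)
    (link : ∀ i < n, ∀ l x, u i l x + t i * w i l x = u (i + 1) l x + w (i + 1) l x)
    (hs₀ : t i₀ ≤ s₀) (hs₁ : s₀ ≤ 1)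
    (hub2 : ∀ i, i₀ ≤ i → i ≤ n → ∀ s ∈ Ioo (t i) 1,
      CostG A p ν E f (fun l x => u i l x + s * w i l x) (w i) ≤
        η i / s * (PhiG A p ν E f (fun l x => u i l x + s * w i l x) + V))
    (last : ∀ l x, t n * w n l x ≤ b)
    (hε : ∑ i ∈ Finset.Icc i₀ n, η i * Real.log (1 / t i) ≤ ε) (hε1 : 0 ≤ ε) (hε2 : ε ≤ 1)
    (hd : 0 ≤ d) (start : PhiG A p ν E f (fun l x => u i₀ l x + s₀ * w i₀ l x) ≤ d * V) :
    PhiG A p ν E f (u n) ≤ Real.exp 10 * (3 * d + 2 * ε) * V := by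
  have h1 := late_start (E := E) (f := f) (ν := ν) (p := p) hA hp hb hWm hV hi₀ hub hw0 hw1 ht ht1
    hη link hs₀ hs₁ hub2 last hε
  have h2 : Real.exp ε ≤ 1 + 2 * ε := by
    have h3 : |ε| ≤ 1 := by rw [abs_of_nonneg hε1]; exact hε2
    have h4 := Real.abs_exp_sub_one_le h3
    rw [abs_of_nonneg hε1] at h4
    linarith [le_abs_self (Real.exp ε - 1)]
  have h5 : 1 ≤ Real.exp ε := Real.one_le_exp hε1
  refine h1.trans ?_
  have h6 : (PhiG A p ν E f (fun l x => u i₀ l x + s₀ * w i₀ l x) + V) * Real.exp ε - V ≤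
      (3 * d + 2 * ε) * V := by
    calc (PhiG A p ν E f (fun l x => u i₀ l x + s₀ * w i₀ l x) + V) * Real.exp ε - V
        ≤ (d * V + V) * Real.exp ε - V := by gcongr
      _ ≤ (d * V + V) * (1 + 2 * ε) - V := by
          have : 0 ≤ d * V + V := by positivity
          nlinarith
      _ = d * V * (1 + 2 * ε) + 2 * ε * V := by ring
      _ ≤ d * V * 3 + 2 * ε * V := by
          have : 0 ≤ d * V := by positivity
          nlinarith
      _ = _ := by ring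
  calc ((PhiG A p ν E f (fun l x => u i₀ l x + s₀ * w i₀ l x) + V) * Real.exp ε - V) *
        Real.exp 10 ≤ ((3 * d + 2 * ε) * V) * Real.exp 10 :=
        mul_le_mul_of_nonneg_right h6 (Real.exp_pos _).le
    _ = _ := by ring

end P365T2.H512
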